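import Vale.Agent.P154.R4K.SmTgt

/-! # P154 q = 4: data of the certificate X4 and the packed checks (generated) -/

namespace Vale.Agent.P154

open Vale.Agent.Util.Polya

def LdX4 : TL :=
  [(-162000000, 1, 0, 0, 0), (1296000000, 1, 1, 0, 0), (-2125440000, 1, 1, 1, 0), (912384000, 1, 1, 1, 1),
   (-2125440000, 2, 1, 0, 0), (4561920000, 2, 1, 1, 0), (-1940889600, 2, 1, 1, 1), (912384000, 2, 2, 0, 0),
   (-2587852800, 2, 2, 1, 0), (1035141120, 2, 2, 1, 1), (318504960, 2, 2, 2, 0), (-119439360, 2, 2, 2, 1),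
   (912384000, 3, 1, 0, 0), (-1509580800, 3, 1, 1, 0), (424673280, 3, 1, 1, 1), (-646963200, 3, 2, 0, 0),
   (1167851520, 3, 2, 1, 0), (-225607680, 3, 2, 1, 1), (-106168320, 3, 2, 2, 0), (79626240, 3, 3, 0, 0),
   (-66355200, 3, 3, 1, 0), (-215654400, 4, 1, 0, 0), (238878720, 4, 1, 1, 0), (-33177600, 4, 1, 1, 1),
   (106168320, 4, 2, 0, 0), (-92897280, 4, 2, 1, 0), (-13271040, 4, 3, 0, 0), (26542080, 5, 1, 0, 0),
   (-14598144, 5, 1, 1, 0), (-6635520, 5, 2, 0, 0), (-1327104, 6, 1, 0, 0)]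

def XsX4_0 : TL :=
  [(33750000, 0, 0, 0, 0), (-270000000, 1, 0, 0, 0), (540000000, 2, 0, 0, 0)]

def XtX4_0 : TL :=
  [(1, 0, 0, 0, 0)]

def TsX4_0 : TG := [(3317760000000, 1, 0, 0)]

def TtX4_0 : TG := [(859963392, 0, 0, 0)]

def XsX4_1 : TL :=
  [(1350000, 0, 0, 0, 0)]

def XtX4_1 : TL :=
  [(25, 0, 0, 0, 0), (-20, 1, 0, 0, 0), (4, 2, 0, 0, 0)]

def TsX4_1 : TG := [(530841600000, 0, 0, 0)]

def TtX4_1 : TG := [(5374771200, 1, 0, 0)]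

def XsX4_2 : TL :=
  [(1425, 0, 0, 0, 0), (-19200, 1, 0, 0, 0), (25200, 1, 1, 0, 0), (68400, 2, 0, 0, 0), (-100800, 2, 1, 0, 0),
   (100800, 2, 2, 0, 0), (-91200, 3, 0, 0, 0), (33600, 4, 0, 0, 0)]

def XtX4_2 : TL :=
  [(21875, 0, 0, 0, 0), (-11250, 1, 0, 0, 0), (1500, 1, 1, 0, 0), (-6000, 2, 0, 0, 0), (300, 2, 1, 0, 0),
   (-120, 2, 2, 0, 0), (3500, 3, 0, 0, 0), (-240, 3, 1, 0, 0), (48, 3, 2, 0, 0), (-440, 4, 0, 0, 0),
   (16, 5, 0, 0, 0)]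

def TsX4_2 : TG := [(-88473600, 0, 1, 0), (12902400, 2, 0, 0)]

def TtX4_2 : TG := [(-2687385600000, 0, 0, 1), (-671846400000, 0, 1, 0), (5374771200000, 1, 0, 0), (335923200000, 1, 1, 0), (671846400000, 2, 0, 0)]

def XsX4_3 : TL :=
  [(-4375, 0, 0, 0, 0), (22500, 1, 0, 0, 0), (-30000, 1, 1, 0, 0), (120000, 2, 0, 0, 0), (-60000, 2, 1, 0, 0),
   (240000, 2, 2, 0, 0), (-700000, 3, 0, 0, 0), (480000, 3, 1, 0, 0), (-960000, 3, 2, 0, 0),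
   (880000, 4, 0, 0, 0), (-320000, 5, 0, 0, 0)]

def XtX4_3 : TL :=
  [(-8875, 0, 0, 0, 0), (12400, 1, 0, 0, 0), (-2100, 1, 1, 0, 0), (-4260, 2, 0, 0, 0), (840, 2, 1, 0, 0),
   (-84, 2, 2, 0, 0), (568, 3, 0, 0, 0), (-28, 4, 0, 0, 0)]

def TsX4_3 : TG := [(245760000, 0, 0, 1), (61440000, 0, 1, 0), (-491520000, 1, 0, 0), (-30720000, 1, 1, 0), (-61440000, 2, 0, 0)]

def TtX4_3 : TG := [(967458816000, 0, 1, 0), (-235146240000, 2, 0, 0)]

def XsX4_4 : TL :=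
  [(-7500, 0, 0, 0, 0), (120000, 1, 0, 0, 0), (-360000, 1, 1, 0, 0), (-360000, 2, 0, 0, 0), (1440000, 2, 1, 0, 0),
   (-1440000, 2, 2, 0, 0), (480000, 3, 0, 0, 0), (-480000, 4, 0, 0, 0)]

def XtX4_4 : TL :=
  [(25, 0, 0, 0, 0), (-20, 1, 0, 0, 0), (4, 2, 0, 0, 0)]

def TsX4_4 : TG := [(-184320000, 2, 0, 0)]

def TtX4_4 : TG := [(5374771200, 1, 0, 0)]

def XsX4_5 : TL :=
  [(-300, 0, 0, 0, 0), (2400, 1, 0, 0, 0), (-4800, 2, 0, 0, 0)]

def XtX4_5 : TL :=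
  [(625, 0, 0, 0, 0), (-1000, 1, 0, 0, 0), (300, 1, 1, 0, 0), (300, 2, 0, 0, 0), (-120, 2, 1, 0, 0),
   (12, 2, 2, 0, 0), (-40, 3, 0, 0, 0), (4, 4, 0, 0, 0)]

def TsX4_5 : TG := [(-29491200, 1, 0, 0)]

def TtX4_5 : TG := [(33592320000, 2, 0, 0)]

def XsX4 : List TL := [XsX4_0, XsX4_1, XsX4_2, XsX4_3, XsX4_4, XsX4_5]

def XtX4 : List TL := [XtX4_0, XtX4_1, XtX4_2, XtX4_3, XtX4_4, XtX4_5]

set_option maxRecDepth 100000 in
theorem goodX4 : good 7 7 96 (certE 7 0 1 1 6 LdX4 XsX4 XtX4) = true := by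
  decide +kernel

set_option maxRecDepth 100000 in
theorem bndX4 : 2 * bnd (certE 7 0 1 1 6 LdX4 XsX4 XtX4) < 2 ^ 96 := by
  decide +kernel

set_option maxRecDepth 100000 in
theorem chkX4 : check 96 8 7 (certE 7 0 1 1 6 LdX4 XsX4 XtX4) 0 (8 * 8) = true := by
  decide +kernel

set_option maxRecDepth 100000 in
theorem chkSX4_0 : chkT 7 XsX4_0 1 1 4 TsX4_0 = true := by
  decide +kernel

set_option maxRecDepth 100000 in
theorem chkTX4_0 : chkT 7 XtX4_0 30 30 12 TtX4_0 = true := by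
  decide +kernel

set_option maxRecDepth 100000 in
theorem chkSX4_1 : chkT 7 XsX4_1 1 1 4 TsX4_1 = true := by
  decide +kernel

set_option maxRecDepth 100000 in
theorem chkTX4_1 : chkT 7 XtX4_1 30 30 12 TtX4_1 = true := by
  decide +kernel

set_option maxRecDepth 100000 in
theorem chkSX4_2 : chkT 7 XsX4_2 1 1 4 TsX4_2 = true := by
  decide +kernel

set_option maxRecDepth 100000 in
theorem chkTX4_2 : chkT 7 XtX4_2 30 30 12 TtX4_2 = true := by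
  decide +kernel

set_option maxRecDepth 100000 in
theorem chkSX4_3 : chkT 7 XsX4_3 1 1 4 TsX4_3 = true := by
  decide +kernel

set_option maxRecDepth 100000 in
theorem chkTX4_3 : chkT 7 XtX4_3 30 30 12 TtX4_3 = true := by
  decide +kernel

set_option maxRecDepth 100000 in
theorem chkSX4_4 : chkT 7 XsX4_4 1 1 4 TsX4_4 = true := by
  decide +kernel

set_option maxRecDepth 100000 in
theorem chkTX4_4 : chkT 7 XtX4_4 30 30 12 TtX4_4 = true := by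
  decide +kernel

set_option maxRecDepth 100000 in
theorem chkSX4_5 : chkT 7 XsX4_5 1 1 4 TsX4_5 = true := by
  decide +kernel

set_option maxRecDepth 100000 in
theorem chkTX4_5 : chkT 7 XtX4_5 30 30 12 TtX4_5 = true := by
  decide +kernel

end Vale.Agent.P154
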