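import Vale.Agent.P154.R4K.SmTgtK

/-! # P154 q = 4: data of the certificate X57 (subadditivity on `T x (5/7) T`) and the packed checks (generated) -/

namespace Vale.Agent.P154

open Vale.Agent.Util.Polya

def LdX57 : TL :=
  [(-4980788064000, 1, 0, 0, 0), (32256532224000, 1, 1, 0, 0), (-44544734976000, 1, 1, 1, 0),
   (17089895424000, 1, 1, 1, 1), (-44544734976000, 2, 1, 0, 0), (85449477120000, 2, 1, 1, 0),
   (-35780355072000, 2, 1, 1, 1), (17089895424000, 2, 2, 0, 0), (-47707140096000, 2, 2, 1, 0),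
   (22355214336000, 2, 2, 1, 1), (6878527488000, 2, 2, 2, 0), (-4497776640000, 2, 2, 2, 1),
   (216760320000, 2, 2, 2, 2), (17089895424000, 3, 1, 0, 0), (-27829165056000, 3, 1, 1, 0),
   (9171369984000, 3, 1, 1, 1), (-11926785024000, 3, 2, 0, 0), (25221267456000, 3, 2, 1, 0),
   (-8495800320000, 3, 2, 1, 1), (-3998023680000, 3, 2, 2, 0), (1661829120000, 3, 2, 2, 1),
   (-51609600000, 3, 2, 2, 2), (1719631872000, 3, 3, 0, 0), (-2498764800000, 3, 3, 1, 0),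
   (529858560000, 3, 3, 1, 1), (505774080000, 3, 3, 2, 0), (-99778560000, 3, 3, 2, 1),
   (-10321920000, 3, 3, 3, 0), (-3975595008000, 4, 1, 0, 0), (5158895616000, 4, 1, 1, 0),
   (-1249382400000, 4, 1, 1, 1), (2292842496000, 4, 2, 0, 0), (-3498270720000, 4, 2, 1, 0),
   (758661120000, 4, 2, 1, 1), (361267200000, 4, 2, 2, 0), (-72253440000, 4, 2, 2, 1),
   (-499752960000, 4, 3, 0, 0), (457605120000, 4, 3, 1, 0), (-46448640000, 4, 3, 1, 1),
   (-44728320000, 4, 3, 2, 0), (24084480000, 4, 4, 0, 0), (-10321920000, 4, 4, 1, 0),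
   (573210624000, 5, 1, 0, 0), (-549728256000, 5, 1, 1, 0), (86704128000, 5, 1, 1, 1),
   (-249876480000, 5, 2, 0, 0), (245661696000, 5, 2, 1, 0), (-25804800000, 5, 2, 1, 1),
   (-12386304000, 5, 2, 2, 0), (36126720000, 5, 3, 0, 0), (-15826944000, 5, 3, 1, 0), (-1720320000, 5, 4, 0, 0),
   (-49975296000, 6, 1, 0, 0), (31309824000, 6, 1, 1, 0), (-2408448000, 6, 1, 1, 1), (14450688000, 6, 2, 0, 0),
   (-6881280000, 6, 2, 1, 0), (-1032192000, 6, 3, 0, 0), (2408448000, 7, 1, 0, 0), (-737280000, 7, 1, 1, 0),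
   (-344064000, 7, 2, 0, 0), (-49152000, 8, 1, 0, 0)]

def XsX57_0 : TL :=
  [(1452729852000, 0, 0, 0, 0), (-11621838816000, 1, 0, 0, 0), (23243677632000, 2, 0, 0, 0)]

def XtX57_0 : TL :=
  [(1, 0, 0, 0, 0)]

def TsX57_0 : TG := [(2284946485936128000, 1, 0, 0)]

def TtX57_0 : TG := [(12288000000000, 0, 0, 0)]

def XsX57_1 : TL :=
  [(29647548000, 0, 0, 0, 0)]

def XtX57_1 : TL :=
  [(49, 0, 0, 0, 0), (-28, 1, 0, 0, 0), (4, 2, 0, 0, 0)]

def TsX57_1 : TG := [(186526243749888000, 0, 0, 0)]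

def TtX57_1 : TG := [(150528000000000, 1, 0, 0)]

def XsX57_2 : TL :=
  [(1824760, 0, 0, 0, 0), (-24586240, 1, 0, 0, 0), (32269440, 1, 1, 0, 0), (87588480, 2, 0, 0, 0),
   (-129077760, 2, 1, 0, 0), (129077760, 2, 2, 0, 0), (-116784640, 3, 0, 0, 0), (43025920, 4, 0, 0, 0)]

def XtX57_2 : TL :=
  [(873964, 0, 0, 0, 0), (-405769, 1, 0, 0, 0), (49392, 1, 1, 0, 0), (-80948, 2, 0, 0, 0), (-1323, 2, 1, 0, 0),
   (-819, 2, 2, 0, 0), (42875, 3, 0, 0, 0), (-2436, 3, 1, 0, 0), (348, 3, 2, 0, 0), (-4025, 4, 0, 0, 0),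
   (116, 5, 0, 0, 0)]

def TsX57_2 : TG := [(-1812694302720, 0, 1, 0), (264351252480, 2, 0, 0)]

def TtX57_2 : TG := [(-1355316480000000000, 0, 0, 1), (-464679936000000000, 0, 1, 0), (2581555200000000000, 1, 0, 0), (187162752000000000, 1, 1, 0), (435637440000000000, 2, 0, 0)]

def XsX57_3 : TL :=
  [(-35177051, 0, 0, 0, 0), (120943172, 1, 0, 0, 0), (-25412184, 1, 1, 0, 0), (1407082040, 2, 0, 0, 0),
   (-1778852880, 2, 1, 0, 0), (3659354496, 2, 2, 0, 0), (-6910231664, 3, 0, 0, 0), (5014670976, 3, 1, 0, 0),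
   (-10029341952, 3, 2, 0, 0), (8583671040, 4, 0, 0, 0), (-3343113984, 5, 0, 0, 0)]

def XtX57_3 : TL :=
  [(-37387, 0, 0, 0, 0), (36848, 1, 0, 0, 0), (-4116, 1, 1, 0, 0), (-9156, 2, 0, 0, 0), (1176, 2, 1, 0, 0),
   (-84, 2, 2, 0, 0), (872, 3, 0, 0, 0), (-28, 4, 0, 0, 0)]

def TsX57_3 : TG := [(34973670703104, 0, 0, 1), (5181284548608, 0, 1, 0), (-74018350694400, 1, 0, 0), (-5135023079424, 1, 1, 0), (-7910711230464, 2, 0, 0)]

def TtX57_3 : TG := [(63221760000000000, 0, 1, 0), (-12907776000000000, 2, 0, 0)]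

def XsX57_4 : TL :=
  [(-65883440, 0, 0, 0, 0), (1054135040, 1, 0, 0, 0), (-3162405120, 1, 1, 0, 0), (-3162405120, 2, 0, 0, 0),
   (12649620480, 2, 1, 0, 0), (-12649620480, 2, 2, 0, 0), (4216540160, 3, 0, 0, 0), (-4216540160, 4, 0, 0, 0)]

def XtX57_4 : TL :=
  [(49, 0, 0, 0, 0), (-28, 1, 0, 0, 0), (4, 2, 0, 0, 0)]

def TsX57_4 : TG := [(-25906422743040, 2, 0, 0)]

def TtX57_4 : TG := [(150528000000000, 1, 0, 0)]

def XsX57_5 : TL :=
  [(-1344560, 0, 0, 0, 0), (10756480, 1, 0, 0, 0), (-21512960, 2, 0, 0, 0)]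

def XtX57_5 : TL :=
  [(2401, 0, 0, 0, 0), (-2744, 1, 0, 0, 0), (588, 1, 1, 0, 0), (588, 2, 0, 0, 0), (-168, 2, 1, 0, 0),
   (12, 2, 2, 0, 0), (-56, 3, 0, 0, 0), (4, 4, 0, 0, 0)]

def TsX57_5 : TG := [(-2114810019840, 1, 0, 0)]

def TtX57_5 : TG := [(1843968000000000, 2, 0, 0)]

def XsX57 : List TL := [XsX57_0, XsX57_1, XsX57_2, XsX57_3, XsX57_4, XsX57_5]

def XtX57 : List TL := [XtX57_0, XtX57_1, XtX57_2, XtX57_3, XtX57_4, XtX57_5]

set_option maxRecDepth 100000 in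
theorem goodX57 : good 9 9 128 (certE 9 0 1 1 10 LdX57 XsX57 XtX57) = true := by
  decide +kernel

set_option maxRecDepth 100000 in
theorem bndX57 : 2 * bnd (certE 9 0 1 1 10 LdX57 XsX57 XtX57) < 2 ^ 128 := by
  decide +kernel

set_option maxRecDepth 100000 in
theorem chkX57 : check 128 10 9 (certE 9 0 1 1 10 LdX57 XsX57 XtX57) 0 (10 * 10) = true := by
  decide +kernel

set_option maxRecDepth 100000 in
theorem chkSX57_0 : chkTK 72 10 9 XsX57_0 1 1 4 TsX57_0 = true := by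
  decide +kernel

set_option maxRecDepth 100000 in
theorem chkTX57_0 : chkTK 48 10 9 XtX57_0 70 70 20 TtX57_0 = true := by
  decide +kernel

set_option maxRecDepth 100000 in
theorem chkSX57_1 : chkTK 64 10 9 XsX57_1 1 1 4 TsX57_1 = true := by
  decide +kernel

set_option maxRecDepth 100000 in
theorem chkTX57_1 : chkTK 56 10 9 XtX57_1 70 70 20 TtX57_1 = true := by
  decide +kernel

set_option maxRecDepth 100000 in
theorem chkSX57_2 : chkTK 56 10 9 XsX57_2 1 1 4 TsX57_2 = true := by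
  decide +kernel

set_option maxRecDepth 100000 in
theorem chkTX57_2 : chkTK 72 10 9 XtX57_2 70 70 20 TtX57_2 = true := by
  decide +kernel

set_option maxRecDepth 100000 in
theorem chkSX57_3 : chkTK 64 10 9 XsX57_3 1 1 4 TsX57_3 = true := by
  decide +kernel

set_option maxRecDepth 100000 in
theorem chkTX57_3 : chkTK 72 10 9 XtX57_3 70 70 20 TtX57_3 = true := by
  decide +kernel

set_option maxRecDepth 100000 in
theorem chkSX57_4 : chkTK 64 10 9 XsX57_4 1 1 4 TsX57_4 = true := by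
  decide +kernel

set_option maxRecDepth 100000 in
theorem chkTX57_4 : chkTK 56 10 9 XtX57_4 70 70 20 TtX57_4 = true := by
  decide +kernel

set_option maxRecDepth 100000 in
theorem chkSX57_5 : chkTK 56 10 9 XsX57_5 1 1 4 TsX57_5 = true := by
  decide +kernel

set_option maxRecDepth 100000 in
theorem chkTX57_5 : chkTK 64 10 9 XtX57_5 70 70 20 TtX57_5 = true := by
  decide +kernel

end Vale.Agent.P154
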